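import Vale.Agent.P277Z.Bir.Defs

/-!
# P277Z: algebra of the local rings of a model
-/

set_option linter.all false

open scoped Topology
open Set Filter
open Vale.Agent.P297 (Place)
open Vale.Agent.P297Z

noncomputable section

namespace Vale.Agent.P277Z.Bi

variable {n N : ℕ} {K : Type} [Field K] [Algebra ℂ K] {M : Mdl n N K}

theorem mkDiv_apply {c : Place K → ℝ} (h : (Function.support c).Finite) (P : Place K) :
    mkDiv c P = c P := by
  simp [mkDiv, h, Finsupp.ofSupportFinite_coe]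

theorem mkDiv_zero {c : Place K → ℝ} {P : Place K} (h : c P = 0) : mkDiv c P = 0 := by
  by_cases hf : (Function.support c).Finite
  · rw [mkDiv_apply hf, h]
  · simp [mkDiv, hf]

theorem gn_eqn {x : M.F} {P : Place K} (h : M.On x P) : M.Gn x P (M.eqn x P) := by
  simp only [Mdl.eqn, dif_pos h]; exact h.choose_spec

theorem eqn_of_not {x : M.F} {P : Place K} (h : ¬ M.On x P) : M.eqn x P = 1 := by
  simp only [Mdl.eqn, dif_neg h]

theorem gn_ne {x : M.F} {P : Place K} {t : K} (h : M.Gn x P t) : t ≠ 0 := by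
  rintro rfl; have := h.ord; simp at this

theorem eqn_ne (x : M.F) (P : Place K) : M.eqn x P ≠ 0 := by
  by_cases h : M.On x P
  · exact gn_ne (gn_eqn h)
  · rw [eqn_of_not h]; exact one_ne_zero

theorem eqn_mem (x : M.F) (P : Place K) : M.eqn x P ∈ M.O x := by
  by_cases h : M.On x P
  · exact (gn_eqn h).mem
  · rw [eqn_of_not h]; exact one_mem _

theorem on_ct {x : M.F} {P : Place K} (h : M.On x P) : M.Ct x P := h.choose_spec.le

theorem ct_nonneg {x : M.F} {Q : Place K} (h : M.Ct x Q) {f : K} (hf : f ∈ M.O x) :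
    0 ≤ Q.ord f := Pl.ord_nonneg_of_mem Q (h f hf)

theorem ord_prod {ι : Type*} (Q : Place K) (s : Finset ι) (f : ι → K) (h : ∀ i ∈ s, f i ≠ 0) :
    Q.ord (∏ i ∈ s, f i) = ∑ i ∈ s, Q.ord (f i) := by
  classical
  induction s using Finset.induction_on with
  | empty => simp
  | insert a s ha ih =>
    rw [Finset.prod_insert ha, Finset.sum_insert ha, Pl.ord_mul Q (h a (by simp))
      (Finset.prod_ne_zero_iff.2 fun i hi => h i (by simp [hi])), ih fun i hi => h i (by simp [hi])]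

theorem ord_eqn (hL : Loc M) {x : M.F} {P : Place K} (h : M.On x P) (R : Place K) :
    P.ord (M.eqn x R) = open Classical in if R = P then 1 else 0 := by
  split_ifs with hR
  · rw [hR]; exact (gn_eqn h).ord
  · by_cases h' : M.On x R
    · exact hL.other x R P _ (gn_eqn h') h (Ne.symm hR)
    · rw [eqn_of_not h', Pl.ord_one]

theorem unit_of (hL : Loc M) {x : M.F} {u : K} (h : ∀ P, M.On x P → P.ord u = 0) :
    u ∈ M.O x ∧ u⁻¹ ∈ M.O x :=
  ⟨hL.mem x u fun P hP => (h P hP).ge, hL.mem x _ fun P hP => by rw [Pl.ord_inv, h P hP]; simp⟩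

theorem ct_unit (hL : Loc M) {x : M.F} {Q : Place K} (hQ : M.Ct x Q) {u : K}
    (h : ∀ P, M.On x P → P.ord u = 0) : Q.ord u = 0 :=
  Pl.ord_unit Q (hQ _ (unit_of hL h).1) (hQ _ (unit_of hL h).2)

theorem div_apply (hL : Loc M) (f : K) (P : Place K) :
    M.div f P = open Classical in if M.Pr P then (P.ord f : ℝ) else 0 := by
  refine mkDiv_apply ((hL.fin f).subset fun Q hQ => ?_) P
  by_cases h : M.Pr Q
  · exact ⟨h, fun h0 => hQ (by simp [h0])⟩
  · exact (hQ (by simp [h])).elim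

theorem div_pr (hL : Loc M) (f : K) {P : Place K} (h : M.Pr P) : M.div f P = P.ord f := by
  rw [div_apply hL, if_pos h]

theorem tr_apply (D : Div K) (P : Place K) :
    M.tr D P = open Classical in if M.Pr P then D P else 0 := by
  simp only [Mdl.tr, Finsupp.filter_apply]

theorem ordAt_eq_sum (x : M.F) (Q : Place K) (D : Div K) {T : Finset (Place K)}
    (h : D.support ⊆ T) : M.ordAt x Q D = ∑ P ∈ T, D P * Q.ord (M.eqn x P) :=
  Finsupp.sum_of_support_subset _ h _ fun _ _ => zero_mul _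

theorem ordAt_add (x : M.F) (Q : Place K) (D E : Div K) :
    M.ordAt x Q (D + E) = M.ordAt x Q D + M.ordAt x Q E :=
  Finsupp.sum_add_index' (fun _ => zero_mul _) fun _ _ _ => add_mul _ _ _

theorem ordAt_smul (x : M.F) (Q : Place K) (c : ℝ) (D : Div K) :
    M.ordAt x Q (c • D) = c * M.ordAt x Q D := by
  rw [ordAt_eq_sum x Q _ Finsupp.support_smul, ordAt_eq_sum x Q D subset_rfl, Finset.mul_sum]
  exact Finset.sum_congr rfl fun P _ => by simp [mul_assoc]

theorem ordAt_nonneg {x : M.F} {Q : Place K} (hQ : M.Ct x Q) {D : Div K}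
    (h : ∀ P, M.On x P → 0 ≤ D P) : 0 ≤ M.ordAt x Q D := by
  refine Finset.sum_nonneg fun P _ => ?_
  by_cases hP : M.On x P
  · exact mul_nonneg (h P hP) (by exact_mod_cast ct_nonneg hQ (eqn_mem x P))
  · simp [eqn_of_not hP]

theorem ordAt_congr {x : M.F} (Q : Place K) {D E : Div K} (h : ∀ P, M.On x P → D P = E P) :
    M.ordAt x Q D = M.ordAt x Q E := by
  classical
  rw [ordAt_eq_sum x Q D (T := D.support ∪ E.support) Finset.subset_union_left,
    ordAt_eq_sum x Q E (T := D.support ∪ E.support) Finset.subset_union_right]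
  refine Finset.sum_congr rfl fun P _ => ?_
  by_cases hP : M.On x P
  · rw [h P hP]
  · simp [eqn_of_not hP]

theorem ordAt_self (hL : Loc M) {x : M.F} {P : Place K} (h : M.On x P) (D : Div K) :
    M.ordAt x P D = D P := by
  classical
  rw [ordAt_eq_sum x P D (T := insert P D.support) (Finset.subset_insert _ _),
    Finset.sum_eq_single P (fun R _ hR => by simp [ord_eqn hL h, hR]) (by simp)]
  simp [ord_eqn hL h]

theorem ordAt_int (x : M.F) (Q : Place K) {D : Div K} (h : IsInt D) :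
    ∃ k : ℤ, M.ordAt x Q D = k := by
  choose k hk using h
  refine ⟨∑ P ∈ D.support, k P * Q.ord (M.eqn x P), ?_⟩
  rw [ordAt_eq_sum x Q D subset_rfl]
  push_cast
  exact Finset.sum_congr rfl fun P _ => by rw [hk]

/-- factorisation in the local ring -/
theorem fac (hL : Loc M) (x : M.F) {f : K} (hf : f ≠ 0) :
    ∃ u, u ≠ 0 ∧ (∀ P, M.On x P → P.ord u = 0) ∧
      f = u * ∏ P ∈ (M.div f).support, M.eqn x P ^ P.ord f := by
  classical
  have h0 : ∀ P ∈ (M.div f).support, M.eqn x P ^ P.ord f ≠ 0 := fun P _ =>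
    zpow_ne_zero _ (eqn_ne x P)
  have h1 := Finset.prod_ne_zero_iff.2 h0
  refine ⟨f / ∏ P ∈ (M.div f).support, M.eqn x P ^ P.ord f, div_ne_zero hf h1, fun R hR => ?_,
    (div_mul_cancel₀ _ h1).symm⟩
  rw [Pl.ord_div R hf h1, ord_prod R _ _ h0, sub_eq_zero,
    Finset.sum_eq_single R (fun P _ hP => by simp [Pl.ord_zpow, ord_eqn hL hR, hP]) fun h => ?_]
  · simp [Pl.ord_zpow, ord_eqn hL hR]
  · have h2 := Finsupp.notMem_support_iff.1 h
    rw [div_pr hL f ⟨x, hR⟩] at h2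
    have h3 : R.ord f = 0 := by exact_mod_cast h2
    simp [h3]

theorem ord_eq_ordAt (hL : Loc M) {x : M.F} {Q : Place K} (hQ : M.Ct x Q) {f : K} (hf : f ≠ 0) :
    (Q.ord f : ℝ) = M.ordAt x Q (M.div f) := by
  obtain ⟨u, h0, h1, h2⟩ := fac hL x hf
  have h3 : ∀ P ∈ (M.div f).support, M.eqn x P ^ P.ord f ≠ 0 := fun P _ =>
    zpow_ne_zero _ (eqn_ne x P)
  have h4 := congrArg Q.ord h2
  rw [Pl.ord_mul Q h0 (Finset.prod_ne_zero_iff.2 h3), ct_unit hL hQ h1, ord_prod Q _ _ h3] at h4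
  rw [h4, ordAt_eq_sum x Q _ subset_rfl]
  push_cast
  rw [zero_add]
  refine Finset.sum_congr rfl fun P hP => ?_
  have h5 : M.Pr P := by
    by_contra h
    exact Finsupp.mem_support_iff.1 hP (by rw [div_apply hL, if_neg h])
  rw [Pl.ord_zpow, div_pr hL f h5]
  push_cast
  rfl

theorem ord_le_of {x : M.F} {P Q : Place K} {t b : K} (ht : M.Gn x P t) (hQ : M.Ct x Q)
    (hb : b ∈ M.O x) (h0 : b ≠ 0) (h : 0 < P.ord b) : Q.ord t ≤ Q.ord b := by
  have h1 := ct_nonneg hQ (ht.dvd b hb h)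
  rw [Pl.ord_div Q h0 (gn_ne ht)] at h1
  omega

/-- a function of positive order has a prime factor of positive order -/
theorem exists_on (hL : Loc M) {x : M.F} {Q : Place K} (hQ : M.Ct x Q) :
    ∃ R, M.On x R ∧ 0 < Q.ord (M.eqn x R) := by
  by_contra h
  push Not at h
  obtain ⟨f, hf, h1⟩ := Pl.exists_ord_eq_one Q
  have h2 := ord_eq_ordAt hL hQ hf
  rw [h1, ordAt_eq_sum x Q _ subset_rfl, Finset.sum_eq_zero fun P _ => ?_] at h2
  · simp at h2
  · by_cases hP : M.On x P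
    · rw [le_antisymm (h P hP) (ct_nonneg hQ (eqn_mem x P))]; simp
    · simp [eqn_of_not hP]

theorem eq_of_cop {x : M.F} {Q R : Place K} {t : K} (hQ : M.Ct x Q) (hR : M.Gn x R t)
    (h : ∀ b ∈ M.O x, b ≠ 0 → R.ord b = 0 → Q.ord b = 0) : R = Q := by
  refine Pl.eq_of_le' fun f hf => ?_
  obtain ⟨b, hb, h0, h1, h2⟩ := hR.loc f hf
  by_cases hf0 : f = 0
  · rw [hf0]; exact Q.ring.zero_mem
  · have h3 := ct_nonneg hQ h2
    rw [Pl.ord_mul Q h0 hf0, h b hb h0 h1, zero_add] at h3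
    exact (Pl.ord_nonneg_iff Q hf0).1 h3

/-- a place whose ring is a localisation of the local ring is a prime divisor -/
theorem on_of_loc (hL : Loc M) {x : M.F} {P : Place K} (hP : M.Ct x P)
    (h : ∀ f ∈ P.ring, ∃ b ∈ M.O x, b ≠ 0 ∧ P.ord b = 0 ∧ b * f ∈ M.O x) : M.On x P := by
  obtain ⟨R, hR, h1⟩ := exists_on hL hP
  have ht := gn_eqn hR
  set t := M.eqn x R
  have ht0 := gn_ne ht
  suffices R = P from this ▸ hR
  refine eq_of_cop hP ht fun b hb hb0 hRb => ?_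
  by_contra hne
  have h2 : 0 < P.ord b := lt_of_le_of_ne (ct_nonneg hP hb) (Ne.symm hne)
  have h3 : b ^ P.ord t / t ^ P.ord b ≠ 0 := div_ne_zero (zpow_ne_zero _ hb0) (zpow_ne_zero _ ht0)
  obtain ⟨c, hc, hc0, h4, h5⟩ := h (b ^ P.ord t / t ^ P.ord b) (by
    rw [← Pl.ord_nonneg_iff P h3, Pl.ord_div P (zpow_ne_zero _ hb0) (zpow_ne_zero _ ht0),
      Pl.ord_zpow, Pl.ord_zpow]
    linarith [mul_comm (P.ord t) (P.ord b)])
  have h6 := ct_nonneg (on_ct hR) h5
  rw [Pl.ord_mul R hc0 h3, Pl.ord_div R (zpow_ne_zero _ hb0) (zpow_ne_zero _ ht0),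
    Pl.ord_zpow, Pl.ord_zpow, hRb, ht.ord] at h6
  have h7 := ord_le_of ht hP hc hc0 (by omega)
  omega

theorem on_of_ct (hL : Loc M) {y : M.F} {P : Place K} (hP : M.Pr P) (h : M.Ct y P) :
    M.On y P := by
  obtain ⟨x, t, ht⟩ := hP
  refine on_of_loc hL h fun f hf => ?_
  obtain ⟨b, hb, h0, h1, h2⟩ := ht.loc f hf
  obtain ⟨c, hc, c0, c1, c2⟩ := hL.ctr x y P ht.le h b hb
  obtain ⟨d, hd, d0, d1, d2⟩ := hL.ctr x y P ht.le h _ h2
  refine ⟨d * (c * b), mul_mem hd c2, mul_ne_zero d0 (mul_ne_zero c0 h0), ?_, ?_⟩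
  · rw [Pl.ord_mul P d0 (mul_ne_zero c0 h0), Pl.ord_mul P c0 h0, d1, c1, h1]; rfl
  · have : d * (c * b) * f = c * (d * (b * f)) := by ring
    rw [this]; exact mul_mem hc d2

theorem ord_eqn_le (hL : Loc M) {x y : M.F} {Q : Place K} (hx : M.Ct x Q) (hy : M.Ct y Q)
    (P : Place K) : Q.ord (M.eqn y P) ≤ Q.ord (M.eqn x P) := by
  have h0 := ct_nonneg hx (eqn_mem x P)
  by_contra hlt
  have h1 : 0 < Q.ord (M.eqn y P) := by omega
  have hyP : M.On y P := by
    by_contra h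
    rw [eqn_of_not h, Pl.ord_one] at h1
    exact lt_irrefl _ h1
  have ht := gn_eqn hyP
  have key : ∀ f ∈ M.O x, ∃ b ∈ M.O y, b ≠ 0 ∧ Q.ord b = 0 ∧ P.ord b = 0 ∧ b * f ∈ M.O y := by
    intro f hf
    obtain ⟨b, hb, b0, b1, b2⟩ := hL.ctr x y Q hx hy f hf
    refine ⟨b, hb, b0, b1, ?_, b2⟩
    by_contra h
    have := ord_le_of ht hy hb b0 (lt_of_le_of_ne (ct_nonneg ht.le hb) (Ne.symm h))
    omega
  have hxP : M.On x P := by
    refine on_of_ct hL ⟨y, hyP⟩ fun f hf => ?_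
    obtain ⟨b, -, b0, -, b2, b3⟩ := key f hf
    by_cases f0 : f = 0
    · rw [f0]; exact P.ring.zero_mem
    · have h2 := ct_nonneg ht.le b3
      rw [Pl.ord_mul P b0 f0, b2, zero_add] at h2
      exact (Pl.ord_nonneg_iff P f0).1 h2
  obtain ⟨b, -, b0, b1, b2, b3⟩ := key _ (eqn_mem x P)
  have h3 := ord_le_of ht hy b3 (mul_ne_zero b0 (eqn_ne x P)) (by
    rw [Pl.ord_mul P b0 (eqn_ne x P), b2, (gn_eqn hxP).ord]; norm_num)
  rw [Pl.ord_mul Q b0 (eqn_ne x P), b1] at h3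
  omega

theorem ordAt_indep (hL : Loc M) {x y : M.F} {Q : Place K} (hx : M.Ct x Q) (hy : M.Ct y Q)
    (D : Div K) : M.ordAt x Q D = M.ordAt y Q D :=
  Finset.sum_congr rfl fun P _ => by
    simp only [le_antisymm (ord_eqn_le hL hy hx P) (ord_eqn_le hL hx hy P)]

theorem ordD_eq (hL : Loc M) {x : M.F} {Q : Place K} (hx : M.Ct x Q) (D : Div K) :
    M.ordD Q D = M.ordAt x Q D := by
  have h : ∃ x, M.Ct x Q := ⟨x, hx⟩
  simp only [Mdl.ordD, dif_pos h]
  exact ordAt_indep hL h.choose_spec hx D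

theorem ordD_add (Q : Place K) (D E : Div K) : M.ordD Q (D + E) = M.ordD Q D + M.ordD Q E := by
  unfold Mdl.ordD
  split_ifs
  · exact ordAt_add _ _ _ _
  · simp

theorem ordD_smul (Q : Place K) (c : ℝ) (D : Div K) : M.ordD Q (c • D) = c * M.ordD Q D := by
  unfold Mdl.ordD
  split_ifs
  · exact ordAt_smul _ _ _ _
  · simp

theorem gn_ord_eq {x : M.F} {P Q : Place K} {t t' : K} (h : M.Gn x P t) (h' : M.Gn x P t')
    (hQ : M.Ct x Q) : Q.ord t = Q.ord t' :=
  le_antisymm (ord_le_of h hQ h'.mem (gn_ne h') (by rw [h'.ord]; norm_num))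
    (ord_le_of h' hQ h.mem (gn_ne h) (by rw [h.ord]; norm_num))

theorem near_eqn (hL : Loc M) (x : M.F) (P : Place K) :
    ∀ᶠ y in 𝓝 x, ∀ Q, M.Ct y Q → Q.ord (M.eqn y P) = Q.ord (M.eqn x P) := by
  by_cases h : M.On x P
  · have h1 : ∀ᶠ y : M.F in 𝓝 x, Hol n (M.val (M.eqn x P)) y :=
      continuous_subtype_val.continuousAt.eventually (Hol.near (eqn_mem x P))
    filter_upwards [hL.near_gn x P _ (gn_eqn h), h1] with y hy h2 Q hQ
    by_cases h3 : M.On y P
    · exact gn_ord_eq (gn_eqn h3) (hy.1 h3) hQ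
    · rw [eqn_of_not h3, Pl.ord_one]
      exact (Pl.ord_unit Q (hQ _ h2) (hQ _ (hL.inv y _ h2 (hy.2 h3)))).symm
  · filter_upwards [hL.near x P] with y hy Q _
    rw [eqn_of_not h, eqn_of_not fun h1 => h (hy h1)]

theorem ordD_fin (hL : Loc M) {N' : ℕ} {M' : Mdl n N' K} (hL' : Loc M') (D : Div K) :
    {Q | M'.Pr Q ∧ M.ordD Q D ≠ 0}.Finite := by
  haveI : CompactSpace M.F := isCompact_iff_compactSpace.1 M.cpt
  obtain ⟨T, hT⟩ := CompactSpace.elim_nhds_subcover
    (fun x : M.F => {y | ∀ P ∈ D.support, ∀ Q, M.Ct y Q → Q.ord (M.eqn y P) = Q.ord (M.eqn x P)})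
    fun x => (eventually_all_finset D.support).2 fun P _ => near_eqn hL x P
  refine (T.finite_toSet.biUnion fun x _ => D.support.finite_toSet.biUnion fun P _ =>
    hL'.fin (M.eqn x P)).subset ?_
  rintro Q ⟨h1, h2⟩
  have h3 : ∃ y, M.Ct y Q := by
    by_contra h
    exact h2 (by simp only [Mdl.ordD, dif_neg h])
  obtain ⟨y, hy⟩ := h3
  rw [ordD_eq hL hy, ordAt_eq_sum y Q D subset_rfl] at h2
  obtain ⟨P, hP, h4⟩ := Finset.exists_ne_zero_of_sum_ne_zero h2
  obtain ⟨x, hx, h5⟩ := mem_iUnion₂.1 (hT.ge (mem_univ y))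
  refine mem_biUnion hx (mem_biUnion hP ⟨h1, ?_⟩)
  rw [← h5 P hP Q hy]
  exact fun h => h4 (by simp [h])

section pull

variable {N' : ℕ} {M' : Mdl n N' K}

theorem pull_apply (hL : Loc M) (hL' : Loc M') (D : Div K) (Q : Place K) :
    M.pull M' D Q = open Classical in if M'.Pr Q then M.ordD Q D else 0 := by
  refine mkDiv_apply ((ordD_fin hL hL' D).subset fun R hR => ?_) Q
  by_cases h : M'.Pr R
  · exact ⟨h, fun h0 => hR (by simp [h0])⟩
  · exact (hR (by simp [h])).elim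

theorem pull_not (D : Div K) {Q : Place K} (h : ¬ M'.Pr Q) : M.pull M' D Q = 0 :=
  mkDiv_zero (if_neg h)

theorem pull_ct (hL : Loc M) (hL' : Loc M') (D : Div K) {Q : Place K} (h : M'.Pr Q) {x : M.F}
    (hx : M.Ct x Q) : M.pull M' D Q = M.ordAt x Q D := by
  rw [pull_apply hL hL', if_pos h, ordD_eq hL hx]

theorem pull_pr (hL : Loc M) (hL' : Loc M') (D : Div K) {P : Place K} (h : M'.Pr P)
    (h' : M.Pr P) : M.pull M' D P = D P := by
  obtain ⟨x, hx⟩ := h'
  rw [pull_ct hL hL' D h (on_ct hx), ordAt_self hL hx]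

theorem pull_add (hL : Loc M) (hL' : Loc M') (D E : Div K) :
    M.pull M' (D + E) = M.pull M' D + M.pull M' E := by
  ext Q
  simp only [Finsupp.add_apply, pull_apply hL hL', ordD_add]
  split_ifs <;> simp

theorem pull_smul (hL : Loc M) (hL' : Loc M') (c : ℝ) (D : Div K) :
    M.pull M' (c • D) = c • M.pull M' D := by
  ext Q
  simp only [Finsupp.smul_apply, pull_apply hL hL', ordD_smul]
  split_ifs <;> simp

/-- the pull back as a linear map -/
def pullL (hL : Loc M) (hL' : Loc M') : Div K →ₗ[ℝ] Div K where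
  toFun := M.pull M'
  map_add' := pull_add hL hL'
  map_smul' := pull_smul hL hL'

theorem pull_sub (hL : Loc M) (hL' : Loc M') (D E : Div K) :
    M.pull M' (D - E) = M.pull M' D - M.pull M' E := (pullL hL hL').map_sub D E

theorem pull_int (hL : Loc M) (hL' : Loc M') {D : Div K} (h : IsInt D) :
    IsInt (M.pull M' D) := by
  intro Q
  rw [pull_apply hL hL']
  split_ifs
  · unfold Mdl.ordD
    split_ifs
    · exact ordAt_int _ _ h
    · exact ⟨0, by simp⟩
  · exact ⟨0, by simp⟩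

end pull

theorem H0_mono {D E : Div K} (h : ∀ P, M.Pr P → D P ≤ E P) : M.H0 D ≤ M.H0 E :=
  fun _ hf => hf.imp id fun h1 P hP => by linarith [h1 P hP, h P hP]

theorem amp_seg (hP : Pos M) {A D : Div K} (hA : M.Amp A) (h : M.Amp (A + D)) {s : ℝ}
    (h0 : 0 ≤ s) (h1 : s ≤ 1) : M.Amp (A + s • D) := by
  rcases h0.eq_or_lt with rfl | h0
  · simpa using hA
  rcases h1.eq_or_lt with rfl | h1
  · simpa using h
  have h2 := hP.add _ _ (hP.smul _ _ (sub_pos.2 h1) hA) (hP.smul _ _ h0 h)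
  have h3 : (1 - s) • A + s • (A + D) = A + s • D := by module
  rwa [h3] at h2

theorem amp_open1 (hP : Pos M) {A : Div K} (hA : M.Amp A) (D : Div K) :
    ∃ ε : ℝ, 0 < ε ∧ ∀ c : ℝ, |c| ≤ ε → M.Amp (A + c • D) := by
  obtain ⟨a, ha, h1⟩ := hP.opn A D hA
  obtain ⟨b, hb, h2⟩ := hP.opn A (-D) hA
  refine ⟨min a b, lt_min ha hb, fun c hc => ?_⟩
  obtain ⟨h3, h4⟩ := abs_le.1 hc
  rcases le_total 0 c with h | h
  · have h5 := amp_seg hP hA h1 (div_nonneg h ha.le)
      ((div_le_one ha).2 (h4.trans (min_le_left _ _)))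
    rwa [smul_smul, div_mul_cancel₀ _ ha.ne'] at h5
  · have h5 := amp_seg hP hA h2 (div_nonneg (neg_nonneg.2 h) hb.le)
      ((div_le_one hb).2 (by linarith [min_le_right a b]))
    rwa [smul_smul, div_mul_cancel₀ _ hb.ne', neg_smul_neg] at h5

/-- ampleness is an open condition in finite dimensional spaces -/
theorem amp_open (hP : Pos M) {ι : Type*} (T : Finset ι) (D : ι → Div K) :
    ∀ {A : Div K}, M.Amp A → ∃ ε : ℝ, 0 < ε ∧ ∀ c : ι → ℝ, (∀ i ∈ T, |c i| ≤ ε) →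
      M.Amp (A + ∑ i ∈ T, c i • D i) := by
  classical
  induction T using Finset.induction_on with
  | empty => exact fun hA => ⟨1, one_pos, fun _ _ => by simpa using hA⟩
  | insert a T ha ih =>
    intro A hA
    have h1 := hP.smul A (1 / 2) (by norm_num) hA
    obtain ⟨e, he, h2⟩ := ih h1
    obtain ⟨e', he', h3⟩ := amp_open1 hP h1 (D a)
    refine ⟨min e e', lt_min he he', fun c hc => ?_⟩
    have h4 := hP.add _ _ (h3 (c a) ((hc a (by simp)).trans (min_le_right _ _)))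
      (h2 c fun i hi => (hc i (by simp [hi])).trans (min_le_left _ _))
    have h5 : (1 / 2 : ℝ) • A + c a • D a + ((1 / 2 : ℝ) • A + ∑ i ∈ T, c i • D i) =
        A + (c a • D a + ∑ i ∈ T, c i • D i) := by module
    rwa [Finset.sum_insert ha, ← h5]

end Vale.Agent.P277Z.Bi
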