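import Vale.Agent.P277Z.Bir.Jac
import Vale.Agent.P277Z.Ps.Nbh
import Vale.Agent.P284Z.F0.Cov

/-!
# P277Z: modifications are onto, prime divisors have strict transforms
-/

set_option linter.all false

open scoped Manifold ContDiff Topology
open Set Filter Metric
open Vale.Agent.P272.K (Cm Chart At)
open Vale.Agent.P297 (Place)
open Vale.Agent.P297Z

noncomputable section

namespace Vale.Agent.P277Z.Bi

/-- hypersurfaces do not disconnect -/
theorem conn_ne {n : ℕ} {W : Type} [TopologicalSpace W] [ChartedSpace (Cm n) W] {b : W → ℂ} {x : W}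
    (hb : Hol n b x) {V : Set W} (hV : V ∈ 𝓝 x) :
    ∃ U ∈ 𝓝 x, U ⊆ V ∧ IsPreconnected {w ∈ U | b w ≠ 0} := by
  have he := Lo.at_chartAt (n := n) x
  set e := chartAt (Cm n) x
  obtain ⟨r, hr, h⟩ := Metric.eventually_nhds_iff_ball.1 ((hb e he).eventually_analyticAt.and
    (((Lo.tendsto_symm he).eventually_mem hV).and
      (e.open_target.eventually_mem (e.map_source he.2))))
  refine ⟨e.symm '' ball (e x) r, ?_, image_subset_iff.2 fun z hz => (h z hz).2.1, ?_⟩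
  · filter_upwards [(e.continuousAt he.2).eventually_mem (ball_mem_nhds _ hr),
      e.open_source.mem_nhds he.2] with w h1 h2 using ⟨_, h1, e.left_inv h2⟩
  have h1 : IsPreconnected {z ∈ ball (e x) r | b (e.symm z) ≠ 0} := by
    by_cases h0 : ∃ z ∈ ball (e x) r, b (e.symm z) ≠ 0
    · exact P284Z.preconn_ne_zero isOpen_ball (convex_ball _ _).isPreconnected
        (fun z hz => (h z hz).1) h0 (fun _ hz => hz.1) fun _ h1 h2 => ⟨h1, h2⟩
    · exact Set.Subsingleton.isPreconnected fun z hz => (h0 ⟨z, hz⟩).elim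
  refine (congrArg IsPreconnected (Set.ext fun w => ?_)).mp
    (h1.image _ (e.continuousOn_symm.mono fun z hz => (h z hz.1).2.2))
  exact ⟨fun ⟨z, hz, k⟩ => ⟨⟨z, hz.1, k⟩, k ▸ hz.2⟩, fun ⟨⟨z, hz, k⟩, k'⟩ => ⟨z, ⟨hz, k ▸ k'⟩, k⟩⟩

variable {n N : ℕ} {K : Type} [Field K] [Algebra ℂ K] {M M' : Mdl n N K} (m : Mod M' M)

/-- a common multiple along the fibre over `x` -/
theorem fib_mul (x : M.F) (S : Submonoid K) (hS : ∀ b ∈ S, b ∈ M.O x) {p : K → M'.F → Prop}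
    (h1 : ∀ y : M'.F, m.g y = x → ∃ b ∈ S, ∀ᶠ z in 𝓝 y, p b z)
    (h2 : ∀ y : M'.F, m.g y = x → ∀ b ∈ M.O x, ∀ c ∈ M.O x, p b y → p (c * b) y) :
    ∃ b ∈ S, ∀ y : M'.F, m.g y = x → p b y := by
  classical
  haveI : CompactSpace M'.F := isCompact_iff_compactSpace.1 M'.cpt
  have hc : Continuous fun y : M'.F => m.g y := continuous_iff_continuousAt.2 fun y =>
    (m.cont y y.2).comp continuousAt_subtype_val
  choose! b h3 h4 using h1
  obtain ⟨T, h5, h6⟩ := IsCompact.elim_nhds_subcover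
    (isClosed_eq hc (continuous_const (y := (x : M.W)))).isCompact (fun y => {z | p (b y) z}) h4
  refine ⟨∏ y ∈ T, b y, prod_mem fun y hy => h3 y (h5 y hy), fun z hz => ?_⟩
  obtain ⟨y, hy, h7⟩ := mem_iUnion₂.1 (h6 hz)
  rw [← Finset.prod_erase_mul _ _ hy]
  exact h2 z hz _ (hS _ (h3 y (h5 y hy))) _
    (hS _ (prod_mem fun y hy => h3 y (h5 y (Finset.mem_of_mem_erase hy)))) h7

/-- neighbourhoods of the fibre over `x` are mapped onto neighbourhoods of `x` -/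
theorem opn (hL : Loc M) (hL' : Loc M') (x : M.F) {p : M'.W → Prop}
    (hp : ∀ y : M'.F, m.g y = x → ∀ᶠ z in 𝓝 (y : M'.W), p z) :
    ∀ᶠ w in 𝓝 (x : M.W), ∃ z, m.g z = w ∧ p z := by
  obtain ⟨O, r, hO, hF, h0, hr, h1, h2, h3, -⟩ := Ps.nbh n N M'.toGeo
    {z | HMap n m.g z ∧ M'.π z = M.π (m.g z)}
    ((eventually_nhdsSet_iff_forall.2 fun y hy => (hmap m ⟨y, hy⟩).near).and m.base)
  have hK := h3 (closedBall 0 (r / 2)) (closedBall_subset_ball (half_lt_self hr))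
    (isCompact_closedBall _ _)
  set C := O ∩ M'.π ⁻¹' closedBall 0 (r / 2) with hC
  have hg : ContinuousOn m.g C := fun z hz => (h0 hz.1).1.1.continuousWithinAt
  have hx0 : M.π x = 0 := (M.fib.self_of_nhdsSet _ x.2).2 x.2
  have hπ : ∀ᶠ w in 𝓝 (x : M.W), M.π w ∈ ball 0 (r / 2) :=
    (continuousAt_pi.2 fun i => Lo.hol_cont (M.hol x x.2 i)).eventually_mem
      (hx0.symm ▸ ball_mem_nhds _ (half_pos hr))
  have key : ∀ q : M'.W → Prop, (∀ y : M'.F, m.g y = x → ∀ᶠ z in 𝓝 (y : M'.W), q z) →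
      ∀ᶠ w in 𝓝 (x : M.W), ∀ z ∈ C, m.g z = w → q z := fun q hq => by
    have k1 := ((hK.diff (isOpen_interior (s := {z | q z}))).image_of_continuousOn
      (hg.mono diff_subset)).isClosed.isOpen_compl
    filter_upwards [k1.mem_nhds (x := (x : M.W)) fun ⟨z, hz, k⟩ => hz.2
      (mem_interior_iff_mem_nhds.2
        (hq ⟨z, (h2 z hz.1.1).2.1 (by rw [(h0 hz.1.1).2, k, hx0])⟩ k))] with w hw z hz k
    exact by_contra fun k' => hw ⟨z, ⟨hz, fun a => k' (interior_subset a)⟩, k⟩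
  obtain ⟨b, ⟨hb, b0⟩, h4⟩ := fib_mul m x ((M.O x).toSubmonoid ⊓ nonZeroDivisors K)
    (fun _ h => h.1) (p := fun b y => ∀ᶠ z in 𝓝 (y : M'.W), M.val b (m.g z) ≠ 0 → Et n m.g z)
    (fun y hy => by
      obtain ⟨t, ht⟩ := hL'.coord y
      choose c k1 k2 k3 using fun i => hL.frac x (t i)
      have k4 : ∏ i, c i ∈ M.O x := prod_mem fun i _ => k1 i
      exact ⟨_, ⟨k4, mem_nonZeroDivisors_of_ne_zero (Finset.prod_ne_zero_iff.2 fun i _ => k2 i)⟩,
        continuousAt_subtype_val.eventually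
          (et_near m hy ht k4 (prod_den k1 k3)).eventually_nhds⟩)
    fun y hy b hb c hc k => by
      have k1 : Tendsto m.g (𝓝 y) (𝓝 x) := hy ▸ m.cont y y.2
      filter_upwards [k, k1.eventually (M.nhds_mul hc hb)] with z k2 k3 k4
        using k2 (right_ne_zero_of_mul (k3 ▸ k4))
  have b1 : b ≠ 0 := nonZeroDivisors.ne_zero b0
  obtain ⟨U, hU, h5, h6⟩ := conn_ne (b := M.val b) hb ((key _ h4).and hπ)
  have hS := (hK.image_of_continuousOn hg).isClosed
  have h7 : ∀ w ∈ U, M.val b w ≠ 0 → w ∈ m.g '' C → w ∈ interior (m.g '' C) := by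
    rintro _ k1 k2 ⟨z, hz, rfl⟩
    refine mem_interior_iff_mem_nhds.2 (((h5 k1).1 z hz rfl k2).opn (inter_mem (hO.mem_nhds hz.1)
      ((continuousAt_pi.2 fun i => Lo.hol_cont (h1 z hz.1 i)).preimage_mem_nhds ?_)))
    exact mem_of_superset (isOpen_ball.mem_nhds ((h0 hz.1).2 ▸ (h5 k1).2)) ball_subset_closedBall
  have h8 : {w ∈ U | M.val b w ≠ 0} ⊆ interior (m.g '' C) := by
    refine h6.subset_of_closure_inter_subset isOpen_interior ?_ fun w hw =>
      h7 w hw.2.1 hw.2.2 (closure_minimal interior_subset hS hw.1)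
    obtain ⟨y, hy⟩ := exists_pt m x
    have k1 : Tendsto m.g (𝓝 y) (𝓝 x) := hy ▸ m.cont y y.2
    obtain ⟨z, a1, a2, a3, a4⟩ := ((Lo.gen_freq' (M'.at_pt (M'.val_ne b1) y)).and_eventually
      ((val_near m hy hb).2.and ((k1.eventually_mem hU).and
        (hO.eventually_mem (hF y.2))))).exists
    exact ⟨m.g z, ⟨a3, a2 ▸ a1⟩, h7 _ a3 (a2 ▸ a1)
      ⟨z, ⟨a4, ball_subset_closedBall ((h0 a4).2 ▸ (h5 a3).2 :)⟩, rfl⟩⟩
  filter_upwards [key p hp, gen_near (M.at_pt (M.val_ne b1) x), eventually_mem_nhds_iff.2 hU]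
    with w k1 k2 k3
  obtain ⟨z, hz, k⟩ : w ∈ m.g '' C := hS.closure_subset (mem_closure_iff_frequently.2
    (((Lo.gen_freq' k2).and_eventually k3).mono fun _ a => interior_subset (h8 ⟨a.2, a.1⟩)))
  exact ⟨z, k, k1 z hz k⟩

/-- the strict transform is mapped onto the prime divisor -/
theorem ons_of (hL : Loc M) (hL' : Loc M') (x : M.F) (P : Place K) (hP : M.On x P) :
    ∃ y : M'.F, m.g y = x ∧ M'.On y P := by
  obtain ⟨t, ht⟩ := hP
  have t0 := gn_ne ht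
  by_contra h
  let S : Submonoid K :=
    { carrier := {b | b ∈ M.O x ∧ b ≠ 0 ∧ P.ord b = 0}
      one_mem' := ⟨one_mem _, one_ne_zero, Pl.ord_one P⟩
      mul_mem' := fun a b => ⟨mul_mem a.1 b.1, mul_ne_zero a.2.1 b.2.1, by
        rw [Pl.ord_mul P a.2.1 b.2.1, a.2.2, b.2.2, add_zero]⟩ }
  obtain ⟨b, ⟨h1, h2, h3⟩, h4⟩ := fib_mul m x S (fun _ h => h.1)
    (p := fun b y => b / t ∈ M'.O y) (fun y hy => by
      have k1 : ¬ M'.Ct y P := fun k => h ⟨y, hy, on_of_loc hL' k fun f hf =>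
        let ⟨b, a1, a2, a3, a4⟩ := ht.loc f hf
        ⟨b, O_le m hy a1, a2, a3, O_le m hy a4⟩⟩
      obtain ⟨f, k2, k3⟩ : ∃ f ∈ M'.O y, f ∉ P.ring := by simpa [Mdl.Ct] using k1
      have f0 : f ≠ 0 := fun k => k3 (k ▸ P.ring.zero_mem)
      have k4 : P.ord f < 0 := not_le.1 fun k => k3 ((Pl.ord_nonneg_iff P f0).1 k)
      obtain ⟨b, a1, a2, a3, a4⟩ := ht.loc f⁻¹
        ((Pl.ord_nonneg_iff P (inv_ne_zero f0)).1 (by rw [Pl.ord_inv]; omega))
      refine ⟨b, ⟨a1, a2, a3⟩, M'.O_near ?_⟩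
      have k5 : b / t = f * (b * f⁻¹ / t) := by field_simp
      exact k5 ▸ mul_mem k2 (O_le m hy (ht.dvd _ a4 (by
        rw [Pl.ord_mul P a2 (inv_ne_zero f0), Pl.ord_inv]; omega))))
    fun y hy b _ c hc k => mul_div_assoc c b t ▸ mul_mem (O_le m hy hc) k
  have h5 := opn m hL hL' x (p := fun z => M.val t (m.g z) = 0 → M.val b (m.g z) = 0)
    fun y hy => by
      filter_upwards [M'.nhds_mul (O_le m hy ht.mem) (h4 y hy), (val_near m hy ht.mem).2,
        (val_near m hy h1).2] with z k1 k2 k3 k4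
      rwa [mul_div_cancel₀ _ t0, k3, k2, k4, zero_mul] at k1
  obtain ⟨w, ⟨k1, k2⟩, z, rfl, k3⟩ := ((freq_of hL ht h1 h2 h3).and_eventually h5).exists
  exact k2 (k3 k1)

include m in
theorem pr_of (hL : Loc M) (hL' : Loc M') (P : Place K) (hP : M.Pr P) : M'.Pr P :=
  let ⟨x, hx⟩ := hP
  let ⟨y, _, hy⟩ := ons_of m hL hL' x P hx
  ⟨y, hy⟩

end Vale.Agent.P277Z.Bi

namespace Vale.Agent.P277Z

open Bi

/-- **BIR** -/
theorem bir_of {n : ℕ} (h1 : LOC n) (h2 : POS n) (h3 : COP n) : BIR n := by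
  intro N K _ _ M hM M' m hM'
  have hL := h1 N K M hM
  have hL' := h1 N K M' hM'
  have hP := h2 N K M hM
  have hP' := h2 N K M' hM'
  have hpr := pr_of m hL hL'
  have hS := semi m hL hL'
  have ha := amp_of m hL hL' hP hP' hS hpr
  exact ⟨fun y x h => ⟨O_le m h, fun f hf => (val_near m h hf).2⟩, O₀_eq m hL hpr,
    ha.elim fun H h => h.1 ▸ H.support.finite_toSet, hpr, fun y x P h => on_of m hL h,
    fun y x Q D h hQ => pull_on m hL hL' h hQ D,
    fun D E f hE h0 => ⟨sec_down hL hL' hpr hE, fun h => H0_mono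
      (fun P _ => le_add_of_nonneg_right (h0 P)) (sec_up m hL hL' h)⟩,
    fun A => nef_of hL hL' hP hP' hS, fun g κ κ' => can_of m hL hL' (h3 N K M hM),
    fun A E h hE Q => neg_of m hL hL' hP' hpr h hE, ha⟩

end Vale.Agent.P277Z
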