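import Vale.Agent.P277Z.Bir.Alg
import Vale.Agent.P277Z.Lo.Base

/-!
# P277Z: modifications, the formal part
-/

set_option linter.all false

open scoped Topology
open Set Filter
open Vale.Agent.P297 (Place)
open Vale.Agent.P297Z

noncomputable section

namespace Vale.Agent.P277Z.Bi

variable {n N : ℕ} {K : Type} [Field K] [Algebra ℂ K] {M M' : Mdl n N K} (m : Mod M' M)

/-- the image of a point of the fibre -/
def pt (y : M'.F) : M.F := ⟨m.g y, m.img ▸ mem_image_of_mem _ y.2⟩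

theorem exists_pt (x : M.F) : ∃ y : M'.F, m.g y = x := by
  obtain ⟨y, h1, h2⟩ : (x : M.W) ∈ m.g '' M'.F := m.img.symm ▸ x.2
  exact ⟨⟨y, h1⟩, h2⟩

theorem val_near {y : M'.F} {x : M.F} (h : m.g y = x) {f : K} (hf : f ∈ M.O x) :
    f ∈ M'.O y ∧ ∀ᶠ z in 𝓝 (y : M'.W), M'.val f z = M.val f (m.g z) := by
  have h1 : Hol n (fun z => M.val f (m.g z)) y := m.hol y y.2 _ (by rw [h]; exact hf)
  exact ⟨M'.mem_O_of h1 (M'.at_pt (m.val f) y), M'.val_eq y.2 h1 (M'.at_pt (m.val f) y)⟩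

theorem O_le {y : M'.F} {x : M.F} (h : m.g y = x) : M.O x ≤ M'.O y :=
  fun _ hf => (val_near m h hf).1

theorem ct_of {y : M'.F} {x : M.F} (h : m.g y = x) {Q : Place K} (hQ : M'.Ct y Q) : M.Ct x Q :=
  fun f hf => hQ f (O_le m h hf)

theorem on_of (hL : Loc M) {y : M'.F} {x : M.F} (h : m.g y = x) {P : Place K} (h1 : M'.On y P)
    (h2 : M.Pr P) : M.On x P := on_of_ct hL h2 (ct_of m h (on_ct h1))

theorem pull_on (hL : Loc M) (hL' : Loc M') {y : M'.F} {x : M.F} (h : m.g y = x) {Q : Place K}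
    (hQ : M'.On y Q) (D : Div K) : M.pull M' D Q = M.ordAt x Q D :=
  pull_ct hL hL' D ⟨y, hQ⟩ (ct_of m h (on_ct hQ))

include m in
theorem O₀_eq (hL : Loc M) (hpr : ∀ P, M.Pr P → M'.Pr P) : M'.O₀ = M.O₀ := by
  refine le_antisymm (fun f hf => Algebra.mem_iInf.2 fun x => hL.mem x f fun P hP => ?_)
    (le_iInf fun y => (iInf_le _ (pt m y)).trans (O_le m rfl))
  obtain ⟨y, hy⟩ := hpr P ⟨x, hP⟩
  exact ct_nonneg (on_ct hy) (Algebra.mem_iInf.1 hf y)

theorem sec_down (hL : Loc M) (hL' : Loc M') (hpr : ∀ P, M.Pr P → M'.Pr P) {D E : Div K} {f : K}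
    (hE : (E.support : Set (Place K)) ⊆ Exc M' M) (h : f ∈ M'.H0 (M.pull M' D + E)) :
    f ∈ M.H0 D := by
  refine h.imp id fun h1 P hP => ?_
  have h2 := h1 P (hpr P hP)
  have h3 : E P = 0 := by_contra fun h3 => (hE (Finsupp.mem_support_iff.2 h3)).2 hP
  rwa [Finsupp.add_apply, h3, add_zero, pull_pr hL hL' D (hpr P hP) hP] at h2

include m in
theorem sec_up (hL : Loc M) (hL' : Loc M') {D : Div K} {f : K} (h : f ∈ M.H0 D) :
    f ∈ M'.H0 (M.pull M' D) := by
  refine or_iff_not_imp_left.2 fun f0 Q ⟨y, hy⟩ => ?_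
  have hc : M.Ct (pt m y) Q := ct_of m rfl (on_ct hy)
  rw [pull_on m hL hL' (x := pt m y) rfl hy, ord_eq_ordAt hL hc f0, ← ordAt_add]
  refine ordAt_nonneg hc fun P hP => ?_
  rw [Finsupp.add_apply, div_pr hL f ⟨_, hP⟩]
  exact h.resolve_left f0 P ⟨_, hP⟩

include m in
theorem neg_of (hL : Loc M) (hL' : Loc M') (hP' : Pos M') (hpr : ∀ P, M.Pr P → M'.Pr P)
    {A E : Div K} (h : M'.Amp (M.pull M' A - E)) (hE : (E.support : Set (Place K)) ⊆ Exc M' M)
    {Q : Place K} (hQ : Q ∈ Exc M' M) : 0 < E Q := by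
  classical
  set T := insert Q E.support with hT
  obtain ⟨e, he, h1⟩ := amp_open hP' A.support (fun P => M.pull M' (Finsupp.single P 1))
    (hP'.smul _ (1 / 2) (by norm_num) h)
  obtain ⟨e', he', h2⟩ := amp_open hP' T (fun P => Finsupp.single P (1 : ℝ))
    (hP'.smul _ (1 / 2) (by norm_num) h)
  obtain ⟨k, hk⟩ := exists_nat_one_div_lt (lt_min he he')
  set c : ℝ := k + 1 with hc
  have c0 : 0 < c := by positivity
  set A₁ : Div K := c • A + ∑ P ∈ A.support, (⌊c * A P⌋ - c * A P) • Finsupp.single P (1 : ℝ)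
    with hA₁
  set E₁ : Div K := c • E - ∑ P ∈ T, (c * E P - (⌈c * E P⌉ - 1)) • Finsupp.single P (1 : ℝ)
    with hE₁
  have a1 : ∀ P, A₁ P = if P ∈ A.support then (⌊c * A P⌋ : ℝ) else 0 := fun P => by
    simp only [hA₁, Finsupp.add_apply, Finsupp.smul_apply, Finsupp.finset_sum_apply,
      Finsupp.single_apply, smul_eq_mul, mul_ite, mul_one, mul_zero, Finset.sum_ite_eq']
    split_ifs with h
    · ring
    · rw [Finsupp.notMem_support_iff.1 h]; ring
  have e1 : ∀ P, E₁ P = if P ∈ T then (⌈c * E P⌉ - 1 : ℝ) else 0 := fun P => by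
    simp only [hE₁, Finsupp.sub_apply, Finsupp.smul_apply, Finsupp.finset_sum_apply,
      Finsupp.single_apply, smul_eq_mul, mul_ite, mul_one, mul_zero, Finset.sum_ite_eq']
    split_ifs with h
    · ring
    · rw [Finsupp.notMem_support_iff.1 fun h' => h (Finset.mem_insert_of_mem h')]; ring
  have b : ∀ s : ℝ, |s| ≤ 1 → |s / c| ≤ min e e' := fun s hs => by
    rw [abs_div, abs_of_pos c0]
    exact (div_le_div_of_nonneg_right hs c0.le).trans hk.le
  have h3 := hP'.smul _ c c0 (hP'.add _ _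
    (h1 (fun P => (⌊c * A P⌋ - c * A P) / c) fun P _ => (b _ (abs_le.2
      ⟨by linarith [Int.lt_floor_add_one (c * A P)], by linarith [Int.floor_le (c * A P)]⟩)).trans
      (min_le_left _ _))
    (h2 (fun P => (c * E P - (⌈c * E P⌉ - 1)) / c) fun P _ => (b _ (abs_le.2
      ⟨by linarith [Int.ceil_lt_add_one (c * E P)], by linarith [Int.le_ceil (c * E P)]⟩)).trans
      (min_le_right _ _)))
  have h4 : M.pull M' A₁ = c • M.pull M' A + ∑ P ∈ A.support,
      (⌊c * A P⌋ - c * A P) • M.pull M' (Finsupp.single P 1) := by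
    have := map_sum (pullL hL hL') (fun P => (⌊c * A P⌋ - c * A P) • Finsupp.single P (1 : ℝ))
      A.support
    simp only [map_smul] at this
    rw [hA₁, pull_add hL hL', pull_smul hL hL']
    exact congrArg _ this
  have h5 : M'.Amp (M.pull M' A₁ - E₁) := by
    rw [h4, hE₁]
    refine (congrArg M'.Amp ?_).mp h3
    simp only [smul_add, Finset.smul_sum, smul_smul, mul_div_cancel₀ _ c0.ne']
    module
  have iA : IsInt A₁ := fun P => by
    rw [a1]
    split_ifs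
    · exact ⟨_, rfl⟩
    · exact ⟨0, by simp⟩
  have h6 : IsInt (M.pull M' A₁ - E₁) := fun P => by
    obtain ⟨a, ha⟩ := pull_int hL hL' iA P
    rw [Finsupp.sub_apply, ha, e1]
    split_ifs
    · exact ⟨a - (⌈c * E P⌉ - 1), by push_cast; rfl⟩
    · exact ⟨a, by simp⟩
  obtain ⟨r₀, hr⟩ := hP'.gg _ 0 h5 h6 fun _ => ⟨0, by simp⟩
  obtain ⟨y, hy⟩ := hQ.1
  obtain ⟨f, h7, f0, h8⟩ := hr (r₀ + 1) (by omega) y
  set r : ℝ := ((r₀ + 1 : ℕ) : ℝ) with hr'
  have r0 : 0 < r := by positivity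
  have h9 : (0 : Div K) + r • (M.pull M' A₁ - E₁) = M.pull M' (r • A₁) + -(r • E₁) := by
    rw [pull_smul hL hL']; module
  rw [h9] at h7 h8
  have h10 := (sec_up m hL hL' (sec_down hL hL' hpr (fun P hP => by
    have h11 : P ∈ T := by_contra fun h12 => Finsupp.mem_support_iff.1 hP (by simp [e1, h12])
    rcases Finset.mem_insert.1 h11 with rfl | h11
    · exact hQ
    · exact hE h11) h7)).resolve_left f0 Q hQ.1
  have h11 := h8 Q hy
  have hQT : Q ∈ T := Finset.mem_insert_self Q E.support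
  simp only [Finsupp.add_apply, Finsupp.neg_apply, Finsupp.smul_apply, smul_eq_mul, e1,
    if_pos hQT] at h11
  have h12 : 0 ≤ (⌈c * E Q⌉ - 1 : ℝ) := nonneg_of_mul_nonneg_right (by linarith) r0
  exact (mul_pos_iff_of_pos_left c0).1 (by linarith [Int.ceil_lt_add_one (c * E Q)])

/-- The pull back of an ample divisor is semipositive. -/
def Semi (M' M : Mdl n N K) : Prop := ∀ B C, M.Amp B → M'.Amp C → M'.Amp (M.pull M' B + C)

theorem nef_of (hL : Loc M) (hL' : Loc M') (hP : Pos M) (hP' : Pos M') (hS : Semi M' M)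
    {A : Div K} (h : M.Nef A) : M'.Nef (M.pull M' A) := fun C hC => by
  obtain ⟨A₀, -, -, h0⟩ := hP.ex
  obtain ⟨ε, h1, h2⟩ := hP'.opn C (-M.pull M' A₀) hC
  refine (congrArg M'.Amp ?_).mp (hS _ _ (h _ (hP.smul _ _ h1 h0)) h2)
  rw [pull_add hL hL', pull_smul hL hL']
  module

include m in
theorem amp_of (hL : Loc M) (hL' : Loc M') (hP : Pos M) (hP' : Pos M') (hS : Semi M' M)
    (hpr : ∀ P, M.Pr P → M'.Pr P) :
    ∃ H : Div K, (H.support : Set (Place K)) = Exc M' M ∧ IsInt H ∧ 0 ≤ H ∧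
      ∀ A, M.Amp A → ∃ ε : ℝ, 0 < ε ∧ M'.Amp (M.pull M' A - ε • H) := by
  obtain ⟨A', h1, h2, h3⟩ := hP'.ex
  have h4 : ((M.pull M' (M.tr A') - A').support : Set (Place K)) ⊆ Exc M' M := fun Q hQ => by
    have h5 := Finsupp.mem_support_iff.1 hQ
    refine ⟨by_contra fun h => h5 ?_, fun h => h5 ?_⟩
    · rw [Finsupp.sub_apply, pull_not _ h, Finsupp.notMem_support_iff.1 fun k => h (h1 Q k),
        sub_zero]
    · rw [Finsupp.sub_apply, pull_pr hL hL' _ (hpr Q h) h, tr_apply, if_pos h, sub_self]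
  have h5 := fun Q hQ => neg_of m hL hL' hP' hpr (A := M.tr A') (by rwa [sub_sub_cancel]) h4
    (Q := Q) hQ
  refine ⟨_, h4.antisymm fun Q hQ => Finsupp.mem_support_iff.2 (h5 Q hQ).ne', fun Q => ?_,
    fun Q => ?_, fun A hA => ?_⟩
  · obtain ⟨a, ha⟩ := pull_int hL hL' (D := M.tr A') (fun P => by
      rw [tr_apply]
      split_ifs
      · exact h2 P
      · exact ⟨0, by simp⟩) Q
    obtain ⟨b, hb⟩ := h2 Q
    exact ⟨a - b, by rw [Finsupp.sub_apply, ha, hb]; push_cast; rfl⟩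
  · by_cases h : Q ∈ Exc M' M
    · exact (h5 Q h).le
    · exact (Finsupp.notMem_support_iff.1 fun k => h (h4 k)).ge
  · obtain ⟨ε, h6, h7⟩ := hP.opn A (-M.tr A') hA
    refine ⟨ε, h6, (congrArg M'.Amp ?_).mp (hS _ _ h7 (hP'.smul _ _ h6 h3))⟩
    rw [smul_neg, ← sub_eq_add_neg, pull_sub hL hL', pull_smul hL hL']
    module

end Vale.Agent.P277Z.Bi
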