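import Vale.Agent.P277Z.Spec

/-!
# P277Z: one more local property
-/

set_option linter.all false

open scoped Topology
open Filter

namespace Vale.Agent.P277Z

/-- The common zero set of the equation of a prime divisor and of a function that does not vanish
on it contains no hypersurface. -/
def CopM {n N : ℕ} {K : Type} [Field K] [Algebra ℂ K] (M : Mdl n N K) : Prop :=
  ∀ x P t, M.Gn x P t → ∀ b ∈ M.O x, b ≠ 0 → P.ord b = 0 →
    ∀ᶠ w in 𝓝 (x : M.W), ∀ c : M.W → ℂ, Hol n c w → c w = 0 →
      ¬ ∀ᶠ w' in 𝓝 w, c w' = 0 → M.val t w' = 0 ∧ M.val b w' = 0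

/-- **COP** -/
def COP (n : ℕ) : Prop := ForM n fun _ _ _ _ M => CopM M

end Vale.Agent.P277Z
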