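import Vale.Agent.P277Z.Bir.Semi
import Vale.Agent.P277Z.Bert.Api
import Vale.Agent.P277Z.FI.Jac
import Vale.Agent.P277Z.FI.Jmd

/-!
# P277Z: modifications, the Jacobian determinant
-/

set_option linter.all false

open scoped Manifold ContDiff Topology
open Set Filter
open Vale.Agent.P272.K (Cm Chart At)
open Vale.Agent.P297 (Place)
open Vale.Agent.P297Z

noncomputable section

namespace Vale.Agent.P277Z.Bi

open FI.J44 FI.JacA

theorem an_inv {n : ℕ} {G : Cm n → Cm n} {a : Cm n} (h : AnalyticAt ℂ G a)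
    (h0 : LinearMap.det (fderiv ℂ G a : Cm n →ₗ[ℂ] Cm n) ≠ 0) :
    ∃ H : Cm n → Cm n, AnalyticAt ℂ H (G a) ∧ H (G a) = a ∧ ∀ᶠ w in 𝓝 (G a), G (H w) = w := by
  have h1 : HasFDerivAt G (((fderiv ℂ G a).toContinuousLinearEquivOfDetNeZero h0 :
      Cm n ≃L[ℂ] Cm n) : Cm n →L[ℂ] Cm n) a := by
    rw [ContinuousLinearMap.coe_toContinuousLinearEquivOfDetNeZero]
    exact h.differentiableAt.hasFDerivAt
  have h2 : ContDiffAt ℂ ω G a := h.contDiffAt
  exact ⟨_, (h2.to_localInverse h1 (by simp)).analyticAt, h2.localInverse_apply_image h1 (by simp),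
    (h2.hasStrictFDerivAt' h1 (by simp)).eventually_right_inverse⟩

section mfd

variable (n : ℕ) {W W' : Type} [TopologicalSpace W] [ChartedSpace (Cm n) W] [TopologicalSpace W']
  [ChartedSpace (Cm n) W'] [IsManifold 𝓘(ℂ, Cm n) ω W] [IsManifold 𝓘(ℂ, Cm n) ω W']

/-- `g` is a local isomorphism at `y` -/
def Et (g : W' → W) (y : W') : Prop :=
  HMap n g y ∧ ∃ (e : Chart n W) (e' : Chart n W'), At e' y ∧ At e (g y) ∧
    LinearMap.det (fderiv ℂ (fun z => e (g (e'.symm z))) (e' y) : Cm n →ₗ[ℂ] Cm n) ≠ 0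

variable {n}

/-- `a` is a holomorphic map to `ℂⁿ` with invertible differential -/
def Nd (a : Fin n → W → ℂ) (x : W) : Prop :=
  (∀ i, Hol n (a i) x) ∧ ∀ e : Chart n W, At e x → jd a e x ≠ 0

variable {g : W' → W} {y : W'} {x : W} {a : Fin n → W → ℂ} {a' : Fin n → W' → ℂ}

theorem jd_hol {e : Chart n W} (he : At e x) (h : ∀ i, Hol n (a i) x) : Hol n (jd a e) x := by
  refine Hol.of_chart he ((an_det (A := jm fun i z => a i (e.symm z))
    fun i _ => an_pd (h i e he) _).congr ?_)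
  filter_upwards [eventually_all.2 fun i => (h i e he).eventually_analyticAt,
    e.open_target.mem_nhds (e.map_source he.2)] with z h1 h2
  rw [jd, e.right_inv h2, det_fderiv fun i => (h1 i).differentiableAt]

theorem Nd.near (h : Nd a x) : ∀ᶠ z in 𝓝 x, Nd a z := by
  have he := Lo.at_chartAt (n := n) x
  filter_upwards [eventually_all.2 fun i => (h.1 i).near, Lo.hol_ne (jd_hol he h.1) (h.2 _ he),
    (chartAt (Cm n) x).open_source.mem_nhds he.2] with z h1 h2 h3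
    using ⟨h1, fun e' he' => Bert.jd_ne_of_chart ⟨he.1, h3⟩ he' h1 h2⟩

theorem et_of (h : HMap n g y) (ha : ∀ i, Hol n (a i) (g y)) (h' : Nd a' y)
    (k : ∀ᶠ z in 𝓝 y, ∀ i, a' i z = a i (g z)) : Et n g y := by
  have he := Lo.at_chartAt (n := n) (g y)
  have he' := Lo.at_chartAt (n := n) y
  exact ⟨h, _, _, he', he, right_ne_zero_of_mul
    (jd_comp he' he ha (h.an he' he) ((h.src he).and k) ▸ h'.2 _ he')⟩

theorem Et.nd (h : Et n g y) (ha : Nd a (g y)) (k : ∀ᶠ z in 𝓝 y, ∀ i, a' i z = a i (g z)) :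
    Nd a' y := by
  obtain ⟨h, e, e', he', he, h0⟩ := h
  have h1 : ∀ i, Hol n (a' i) y := fun i => (h.2 _ (ha.1 i)).congr (k.mono fun _ hz => (hz i).symm)
  refine ⟨h1, fun _ h2 => Bert.jd_ne_of_chart he' h2 h1 ?_⟩
  rw [jd_comp he' he ha.1 (h.an he' he) ((h.src he).and k)]
  exact mul_ne_zero (ha.2 e he) h0

theorem Et.inv (h : Et n g y) :
    ∃ H : W → W', HMap n H (g y) ∧ H (g y) = y ∧ ∀ᶠ w in 𝓝 (g y), g (H w) = w := by
  obtain ⟨h, e, e', he', he, h0⟩ := h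
  obtain ⟨H, h1, h2, h3⟩ := an_inv (h.an he' he) h0
  rw [e'.left_inv he'.2] at h1 h2 h3
  have h4 : e'.symm (H (e (g y))) = y := by rw [h2, e'.left_inv he'.2]
  have h5 : Tendsto (fun w => H (e w)) (𝓝 (g y)) (𝓝 (e' y)) :=
    h2 ▸ h1.continuousAt.tendsto.comp (e.continuousAt he.2)
  have h6 := h5.eventually (e'.open_target.mem_nhds (e'.map_source he'.2))
  refine ⟨fun w => e'.symm (H (e w)), hmap_of (e := e') he (by rwa [h4])
    (h6.mono fun _ hw => e'.map_target hw) (h1.congr ?_), h4, ?_⟩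
  · filter_upwards [(Lo.tendsto_symm he).eventually h6,
      e.open_target.mem_nhds (e.map_source he.2)] with z k1 k2
    rw [e'.right_inv k1, e.right_inv k2]
  · filter_upwards [(e.continuousAt he.2).eventually h3, e.open_source.mem_nhds he.2,
      ((Lo.tendsto_symm he').comp h5).eventually (h.src he)] with w k1 k2 k3
    exact e.injOn k3 k2 k1

theorem Et.opn (h : Et n g y) {S : Set W'} (hS : S ∈ 𝓝 y) : g '' S ∈ 𝓝 (g y) := by
  obtain ⟨H, h1, h2, h3⟩ := h.inv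
  filter_upwards [h3, h1.1.eventually_mem (h2.symm ▸ hS)] with w k1 k2 using ⟨_, k2, k1⟩

end mfd

variable {n N : ℕ} {K : Type} [Field K] [Algebra ℂ K] {M M' : Mdl n N K}

theorem nd_of {x : M.F} {t : Fin n → K} (h : M.Coord x t) :
    Nd (fun i => M.val (t i)) (x : M.W) := ⟨fun i => (h.1 i).1, h.2⟩

theorem van_of {x : M.F} {Q : Place K} {s f : K} (hs : M.Gn x Q s) (hf : f ∈ M.O x)
    (h : 0 < Q.ord f) : ∀ᶠ z in 𝓝 (x : M.W), M.val s z = 0 → M.val f z = 0 := by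
  filter_upwards [M.nhds_mul hs.mem (hs.dvd f hf h)] with z h1 h2
  rwa [mul_div_cancel₀ _ (gn_ne hs), h2, zero_mul] at h1

theorem freq_of (hL : Loc M) {x : M.F} {Q : Place K} {s f : K} (hs : M.Gn x Q s) (hf : f ∈ M.O x)
    (f0 : f ≠ 0) (h : Q.ord f = 0) : ∃ᶠ z in 𝓝 (x : M.W), M.val s z = 0 ∧ M.val f z ≠ 0 := by
  intro h1
  obtain ⟨c, h2, h3⟩ := hL.red x Q s hs (M.val f) hf
    (h1.mono fun _ k1 k2 => by_contra fun k3 => k1 ⟨k2, k3⟩)
  have h4 : f / s ∈ M.O x := M.mem_O_of h2 (by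
    filter_upwards [M.at_pt (M.val_div f s) x, M.at_pt (M.val_ne (gn_ne hs)) x, gen_of_nhds h3]
      with z k1 k2 k3
    rw [k1, k3, mul_div_cancel_left₀ _ k2])
  have h5 := ct_nonneg hs.le h4
  rw [Pl.ord_div Q f0 (gn_ne hs), hs.ord] at h5
  omega

theorem prod_den {ι : Type*} [Fintype ι] {A : Subalgebra ℂ K} {b t : ι → K} (hb : ∀ i, b i ∈ A)
    (h : ∀ i, b i * t i ∈ A) (i : ι) : (∏ j, b j) * t i ∈ A := by
  classical
  rw [← Finset.prod_erase_mul _ _ (Finset.mem_univ i), mul_assoc]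
  exact mul_mem (prod_mem fun j _ => hb j) (h i)

theorem jac_trans {s t u : Fin n → K} {j J : K} (h : M.Jac s t j) (h' : M.Jac t u J) :
    M.Jac s u (j * J) := fun x hx e he => by
  filter_upwards [h x hx e he, h' x hx e he, M.at_pt (M.val_mul j J) ⟨x, hx⟩] with z h1 h2 h3
  rw [h1, h2, h3, mul_assoc]

theorem jac_near {y : M.F} {t t' : Fin n → K} {J : K} (ht : ∀ i, t i ∈ M.O y) (h' : M.Coord y t')
    (hJ : M.Jac t t' J) :
    J ∈ M.O y ∧ ∀ᶠ z in 𝓝 (y : M.W), (M.val J z ≠ 0 ↔ Nd (fun i => M.val (t i)) z) := by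
  have he := Lo.at_chartAt (n := n) (y : M.W)
  set e := chartAt (Cm n) (y : M.W)
  have h1 := Lo.hol_div (jd_hol he ht) (jd_hol he (nd_of h').1) (h'.2 e he)
  have h2 := Lo.hol_ne (jd_hol he (nd_of h').1) (h'.2 e he)
  have h3 : ∀ᶠ z in gen {(y : M.W)}, M.val J z =
      jd (fun i => M.val (t i)) e z / jd (fun i => M.val (t' i)) e z := by
    filter_upwards [hJ y y.2 e he, gen_of_nhds h2] with z k1 k2
    rw [k1, mul_div_cancel_right₀ _ k2]
  refine ⟨M.mem_O_of h1 h3, ?_⟩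
  filter_upwards [M.val_eq y.2 h1 h3, h2, eventually_all.2 fun i => Hol.near (ht i),
    e.open_source.mem_nhds he.2] with z k1 k2 k3 k4
  rw [k1, div_ne_zero_iff, and_iff_left k2]
  exact ⟨fun k => ⟨k3, fun _ he' => Bert.jd_ne_of_chart ⟨he.1, k4⟩ he' k3 k⟩,
    fun k => k.2 e ⟨he.1, k4⟩⟩

variable (m : Mod M' M) {y : M'.F} {x : M.F}

/-- off the zeros of a common denominator of the coordinates, `g` is a local isomorphism -/
theorem et_near (h : m.g y = x) {t' : Fin n → K} (h' : M'.Coord y t') {b : K} (hb : b ∈ M.O x)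
    (hb' : ∀ i, b * t' i ∈ M.O x) :
    ∀ᶠ z in 𝓝 (y : M'.W), M.val b (m.g z) ≠ 0 → Et n m.g z := by
  have hc : Tendsto m.g (𝓝 y) (𝓝 x) := h ▸ m.cont y y.2
  have h1 : ∀ᶠ z in 𝓝 (y : M'.W), ∀ i,
      M.val (b * t' i) (m.g z) = M.val b (m.g z) * M'.val (t' i) z := eventually_all.2 fun i => by
    filter_upwards [(val_near m h hb).2, (val_near m h (hb' i)).2,
      M'.nhds_mul (O_le m h hb) (h'.1 i).1] with z k1 k2 k3
    rw [← k2, k3, k1]
  filter_upwards [(hmap m y).near, (nd_of h').near, h1.eventually_nhds, hc.eventually (Hol.near hb),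
    hc.eventually (eventually_all.2 fun i => Hol.near (hb' i))] with z k1 k2 k3 k4 k5 k6
  refine et_of (a := fun i w => M.val (b * t' i) w / M.val b w) k1
    (fun i => Lo.hol_div (k5 i) k4 k6) k2 ?_
  filter_upwards [k3, k1.1.eventually (Lo.hol_ne k4 k6)] with w a1 a2 i
  rw [a1, mul_div_cancel_left₀ _ a2]

theorem et_iff (h : m.g y = x) {t t' : Fin n → K} {J : K} (ht : M.Coord x t) (h' : M'.Coord y t')
    (hJ : M'.Jac t t' J) : ∀ᶠ z in 𝓝 (y : M'.W), (M'.val J z ≠ 0 ↔ Et n m.g z) := by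
  have hc : Tendsto m.g (𝓝 y) (𝓝 x) := h ▸ m.cont y y.2
  filter_upwards [(jac_near (fun i => O_le m h (ht.1 i).1) h' hJ).2, (hmap m y).near,
    hc.eventually (nd_of ht).near,
    (eventually_all.2 fun i => (val_near m h (ht.1 i).1).2).eventually_nhds] with z k1 k2 k3 k4
  exact k1.trans ⟨fun k => et_of k2 k3.1 k k4, fun k => k.nd k3 k4⟩

theorem jac_pr (hL : Loc M) (hL' : Loc M') (h : m.g y = x) {t t' : Fin n → K} {J : K}
    (ht : M.Coord x t) (h' : M'.Coord y t') (hJ : M'.Jac t t' J) {Q : Place K} (hQ : M'.On y Q)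
    (hQ' : M.Pr Q) : Q.ord J = 0 := by
  have hJ' := (jac_near (fun i => O_le m h (ht.1 i).1) h' hJ).1
  obtain ⟨q, hq⟩ := on_of m hL h hQ hQ'
  obtain ⟨s, hs⟩ := hQ
  choose b h1 h2 h3 h4 using fun i => hq.loc _ (hs.le _ (h'.1 i).1)
  have h5 : ∏ i, b i ∈ M.O x := prod_mem fun i _ => h1 i
  refine le_antisymm (not_lt.1 fun h6 => ?_) (ct_nonneg hs.le hJ')
  obtain ⟨z, k1, k2, k3, k4, k5⟩ := ((freq_of hL' hs (O_le m h h5)
    (Finset.prod_ne_zero_iff.2 fun i _ => h2 i) (by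
      rw [ord_prod Q _ _ fun i _ => h2 i]; exact Finset.sum_eq_zero fun i _ => h3 i)).and_eventually
    ((van_of hs hJ' h6).and ((val_near m h h5).2.and ((et_iff m h ht h' hJ).and
      (et_near m h h' h5 (prod_den h1 h4)))))).exists
  exact k4.2 (k5 (k3 ▸ k1.2)) (k2 k1.1)

theorem jac_exc (hL : Loc M) (hL' : Loc M') (hC : CopM M) (h : m.g y = x) {t t' : Fin n → K}
    {J : K} (ht : M.Coord x t) (h' : M'.Coord y t') (hJ : M'.Jac t t' J) (J0 : J ≠ 0)
    {Q : Place K} (hQ : M'.On y Q) (h0 : Q.ord J = 0) : M.Pr Q := by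
  have hJ' := (jac_near (fun i => O_le m h (ht.1 i).1) h' hJ).1
  have hc : Tendsto m.g (𝓝 y) (𝓝 x) := h ▸ m.cont y y.2
  have hx := ct_of m h (on_ct hQ)
  obtain ⟨R, hR, h1⟩ := exists_on hL hx
  obtain ⟨s, hs⟩ := hQ
  suffices R = Q from this ▸ ⟨x, hR⟩
  refine eq_of_cop hx (gn_eqn hR) fun b hb b0 h2 => ?_
  refine le_antisymm (not_lt.1 fun h3 => ?_) (ct_nonneg hx hb)
  have h4 : ∀ᶠ z in 𝓝 (y : M'.W), M'.val s z = 0 →
      M.val (M.eqn x R) (m.g z) = 0 ∧ M.val b (m.g z) = 0 := by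
    filter_upwards [van_of hs (O_le m h (eqn_mem x R)) h1, van_of hs (O_le m h hb) h3,
      (val_near m h (eqn_mem x R)).2, (val_near m h hb).2] with z k1 k2 k3 k4 k5
      using ⟨k3 ▸ k1 k5, k4 ▸ k2 k5⟩
  obtain ⟨z, k1, k2, k3, k4, k5⟩ := ((freq_of hL' hs hJ' J0 h0).and_eventually
    ((et_iff m h ht h' hJ).and (h4.eventually_nhds.and ((Hol.near hs.mem).and
      (hc.eventually (hC x R _ (gn_eqn hR) b hb b0 h2)))))).exists
  obtain ⟨H, a1, a2, a3⟩ := (k2.1 k1.2).inv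
  refine k5 (fun w => M'.val s (H w)) (a1.2 _ (a2.symm ▸ k4)) (by rw [a2]; exact k1.1) ?_
  filter_upwards [a3, a1.1.eventually (a2.symm ▸ k3 :)] with w b1 b2 b3
  exact b1 ▸ b2 b3

include m in
theorem can_of (hL : Loc M) (hL' : Loc M') (hC : CopM M) {g : Fin n → K} {κ κ' : Div K}
    (h : M.Can g κ) (h' : M'.Can g κ') : 0 ≤ κ' - M.pull M' κ ∧
      ((κ' - M.pull M' κ).support : Set (Place K)) = Exc M' M := by
  have h1 : ∀ Q, ¬ M'.Pr Q → (κ' - M.pull M' κ) Q = 0 := fun Q hQ => by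
    rw [Finsupp.sub_apply, pull_not _ hQ, Finsupp.notMem_support_iff.1 fun k => hQ (h'.1 Q k),
      sub_zero]
  have h2 : ∀ Q, M'.Pr Q → 0 ≤ (κ' - M.pull M' κ) Q ∧ ((κ' - M.pull M' κ) Q = 0 ↔ M.Pr Q) := by
    rintro Q ⟨y, hy⟩
    obtain ⟨t, ht⟩ := hL.coord (pt m y)
    obtain ⟨t', ht'⟩ := hL'.coord y
    obtain ⟨j, hj⟩ := hL.jac _ t g ht
    obtain ⟨J, hJ⟩ := hL'.jac _ t' t ht'
    obtain ⟨j0, a1⟩ := h.2 _ t j ht hj
    obtain ⟨a2, a3⟩ := h'.2 y t' _ ht' (jac_trans (FI.jmd n N K M M' m g t j hj) hJ)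
    have J0 := right_ne_zero_of_mul a2
    have hx : M.Ct (pt m y) Q := ct_of m rfl (on_ct hy)
    have a4 : (κ' - M.pull M' κ) Q = Q.ord J := by
      rw [Finsupp.sub_apply, a3 Q hy, pull_on m hL hL' (x := pt m y) rfl hy,
        ordAt_congr Q (E := M.div j) fun P hP => by rw [a1 P hP, div_pr hL j ⟨_, hP⟩],
        ← ord_eq_ordAt hL hx j0, Pl.ord_mul Q j0 J0]
      push_cast
      ring
    rw [a4, Int.cast_eq_zero]
    exact ⟨by exact_mod_cast ct_nonneg (on_ct hy) (jac_near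
      (fun i => O_le m (x := pt m y) rfl (ht.1 i).1) ht' hJ).1,
      jac_exc m hL hL' hC rfl ht ht' hJ J0 hy, jac_pr m hL hL' rfl ht ht' hJ hy⟩
  refine ⟨fun Q => ?_, Set.ext fun Q => ?_⟩
  · by_cases hQ : M'.Pr Q
    · exact (h2 Q hQ).1
    · exact (h1 Q hQ).ge
  · rw [Finset.mem_coe, Finsupp.mem_support_iff]
    by_cases hQ : M'.Pr Q
    · exact (h2 Q hQ).2.not.trans (and_iff_right hQ).symm
    · exact iff_of_false (fun k => k (h1 Q hQ)) fun k => hQ k.1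

end Vale.Agent.P277Z.Bi
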