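import Vale.Agent.P277Z.Bir.Opn
import Vale.Agent.P277Z.Rst.Defs

/-!
# P277Z: the strict transform of a prime divisor
-/

namespace Vale.Agent.P277Z

/-- **ONS** -/
theorem ons {n : ℕ} (h : LOC n) : ONS n := fun N K _ _ M hM M' m hM' =>
  Bi.ons_of m (h N K M hM) (h N K M' hM')

end Vale.Agent.P277Z
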