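import Vale.Agent.P277Z.Bir.Bas
import Vale.Agent.P272.K.Inv.Hess

/-!
# P277Z: modifications, holomorphic maps and pull backs of metrics
-/

set_option linter.all false

open scoped Manifold ContDiff Topology ComplexOrder
open Set Filter
open Vale.Agent.P272.K
open Vale.Agent.P297 (Place)
open Vale.Agent.P297Z

noncomputable section

namespace Vale.Agent.P277Z.Bi

section mfd

variable (n : ℕ) {W W' : Type} [TopologicalSpace W] [ChartedSpace (Cm n) W] [TopologicalSpace W']
  [ChartedSpace (Cm n) W'] [IsManifold 𝓘(ℂ, Cm n) ω W] [IsManifold 𝓘(ℂ, Cm n) ω W']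

/-- `g` is holomorphic at `y` -/
def HMap (g : W' → W) (y : W') : Prop :=
  ContinuousAt g y ∧ ∀ a, Hol n a (g y) → Hol n (fun z => a (g z)) y

variable {n} {g : W' → W} {y : W'} {e : Chart n W} {e' : Chart n W'}

theorem HMap.an (h : HMap n g y) (he' : At e' y) (he : At e (g y)) :
    AnalyticAt ℂ (fun z => e (g (e'.symm z))) (e' y) := AnalyticAt.pi fun i =>
  h.2 (fun x => e x i) (fun _ hc => analyticAt_pi_iff.1 (trans_an he hc) i) e' he'

theorem HMap.src (h : HMap n g y) (he : At e (g y)) : ∀ᶠ z in 𝓝 y, g z ∈ e.source :=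
  h.1.eventually_mem (e.open_source.mem_nhds he.2)

theorem hmap_of (he' : At e' y) (he : At e (g y)) (h1 : ∀ᶠ z in 𝓝 y, g z ∈ e.source)
    (h2 : AnalyticAt ℂ (fun z => e (g (e'.symm z))) (e' y)) : HMap n g y := by
  have h3 : e (g (e'.symm (e' y))) = e (g y) := by rw [e'.left_inv he'.2]
  refine ⟨?_, fun a ha => Hol.of_chart he' ?_⟩
  · have h4 : Tendsto (fun z => e.symm (e (g (e'.symm (e' z))))) (𝓝 y) (𝓝 (g y)) :=
      (Lo.tendsto_symm he).comp (h3 ▸ h2.continuousAt.tendsto.comp (e'.continuousAt he'.2))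
    refine h4.congr' ?_
    filter_upwards [h1, e'.open_source.mem_nhds he'.2] with z k1 k2
    rw [e'.left_inv k2, e.left_inv k1]
  · refine (((h3 ▸ ha e he :) : AnalyticAt ℂ (fun z => a (e.symm z)) (e (g (e'.symm (e' y))))).comp'
      (f := fun z => e (g (e'.symm z))) h2).congr ?_
    filter_upwards [(Lo.tendsto_symm he').eventually h1] with z hz
    simp only [e.left_inv hz]

theorem HMap.near (h : HMap n g y) : ∀ᶠ z in 𝓝 y, HMap n g z := by
  have he := Lo.at_chartAt (n := n) (g y)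
  have he' := Lo.at_chartAt (n := n) y
  filter_upwards [(h.src he).eventually_nhds, (OpenPartialHomeomorph.continuousAt _ he'.2).eventually
    (h.an he' he).eventually_analyticAt, (chartAt (Cm n) y).open_source.mem_nhds he'.2]
    with z h1 h2 h3 using hmap_of ⟨he'.1, h3⟩ ⟨he.1, h1.self_of_nhds⟩ h1 h2

theorem two {u : Cm n → ℝ} {z : Cm n} (h : ContDiffAt ℝ ∞ u z) : ContDiffAt ℝ 2 u z :=
  h.of_le (by norm_cast)

theorem HMap.psd (h : HMap n g y) {φ : W → ℝ} (hφ : Spsh n φ (g y)) (he' : At e' y) :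
    ContDiffAt ℝ ∞ (fun z => φ (g (e'.symm z))) (e' y) ∧
      (cHess (fun z => φ (g (e'.symm z))) (e' y)).PosSemidef := by
  have he := Lo.at_chartAt (n := n) (g y)
  set e := chartAt (Cm n) (g y)
  have h2 := h.an he' he
  obtain ⟨h3, h4⟩ := hφ e he
  rw [← e'.left_inv he'.2] at h3 h4
  have h5 : (fun z => φ (g (e'.symm z))) =ᶠ[𝓝 (e' y)]
      fun z => φ (e.symm (e (g (e'.symm z)))) := by
    filter_upwards [(Lo.tendsto_symm he').eventually (h.src he)] with z hz
    rw [e.left_inv hz]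
  refine ⟨(ContDiffAt.comp (g := fun z => φ (e.symm z)) (f := fun z => e (g (e'.symm z))) (e' y) h3
    ((h2.contDiffAt (n := ∞)).restrict_scalars ℝ)).congr_of_eventuallyEq h5, ?_⟩
  rw [cHess_congr h5, cHess_comp (f := fun z => φ (e.symm z)) (two h3) h2.contDiffAt]
  have h6 := h4.posSemidef.conjTranspose_mul_mul_same
    ((jmat (fun z => e (g (e'.symm z))) (e' y)).map (starRingEnd ℂ))
  refine (congrArg Matrix.PosSemidef ?_).mp h6
  congr 2
  ext i j
  simp

theorem flat {ι : Type*} (s : Finset ι) (c : ι → ℝ) {u : ι → Cm n → ℂ} {z : Cm n}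
    (h : ∀ i ∈ s, AnalyticAt ℂ (u i) z ∧ u i z ≠ 0) :
    ContDiffAt ℝ ∞ (fun y => ∑ i ∈ s, c i * Real.log (‖u i y‖ ^ 2)) z ∧
      cHess (fun y => ∑ i ∈ s, c i * Real.log (‖u i y‖ ^ 2)) z = 0 := by
  classical
  induction s using Finset.induction_on with
  | empty => exact ⟨by simpa using contDiffAt_const, by
      simpa using cHess_const_mul (f := fun _ : Cm n => (0 : ℝ)) (z := z) 0 contDiffAt_const⟩
  | insert a s ha ih =>
    obtain ⟨h1, h2⟩ := ih fun i hi => h i (Finset.mem_insert_of_mem hi)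
    obtain ⟨h3, h4⟩ := h a (Finset.mem_insert_self _ _)
    have h5 : ContDiffAt ℝ ∞ (fun y => Real.log (‖u a y‖ ^ 2)) z :=
      (((h3.contDiffAt (n := ∞)).restrict_scalars ℝ).norm_sq ℂ).log (by positivity)
    simp only [Finset.sum_insert ha]
    refine ⟨(contDiffAt_const.mul h5).add h1, ?_⟩
    rw [cHess_add (two (contDiffAt_const.mul h5)) (two h1), h2, cHess_const_mul _ (two h5),
      cHess_log_norm_sq h3.contDiffAt h4, smul_zero, add_zero]

end mfd

variable {n N : ℕ} {K : Type} [Field K] [Algebra ℂ K] {M M' : Mdl n N K}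

theorem lg_eq_sum (x : M.F) (D : Div K) (y : M.W) {T : Finset (Place K)} (h : D.support ⊆ T) :
    M.lg x D y = ∑ P ∈ T, D P * Real.log (‖M.val (M.eqn x P) y‖ ^ 2) :=
  Finsupp.sum_of_support_subset _ h _ fun _ _ => zero_mul _

theorem lg_add (x : M.F) (D E : Div K) (y : M.W) : M.lg x (D + E) y = M.lg x D y + M.lg x E y :=
  Finsupp.sum_add_index' (fun _ => zero_mul _) fun _ _ _ => add_mul _ _ _

theorem lg_smul (x : M.F) (c : ℝ) (D : Div K) (y : M.W) : M.lg x (c • D) y = c * M.lg x D y := by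
  rw [lg_eq_sum x _ y Finsupp.support_smul, lg_eq_sum x D y subset_rfl, Finset.mul_sum]
  exact Finset.sum_congr rfl fun P _ => by simp [mul_assoc]

theorem lg_sum {ι : Type*} (x : M.F) (s : Finset ι) (D : ι → Div K) (y : M.W) :
    M.lg x (∑ i ∈ s, D i) y = ∑ i ∈ s, M.lg x (D i) y := by
  classical
  induction s using Finset.induction_on with
  | empty => simp [Mdl.lg]
  | insert a s ha ih => rw [Finset.sum_insert ha, Finset.sum_insert ha, lg_add, ih]

theorem lg_congr {x : M.F} {D E : Div K} (h : ∀ P, M.On x P → D P = E P) (y : M.W) :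
    M.lg x D y = M.lg x E y := by
  classical
  rw [lg_eq_sum x D y (T := D.support ∪ E.support) Finset.subset_union_left,
    lg_eq_sum x E y (T := D.support ∪ E.support) Finset.subset_union_right]
  refine Finset.sum_congr rfl fun P _ => ?_
  by_cases hP : M.On x P
  · rw [h P hP]
  · simp [eqn_of_not hP, M.val_one]

theorem lg_fac (hL : Loc M) (x : M.F) {f : K} (hf : f ≠ 0) :
    ∃ u ∈ M.O x, M.val u x ≠ 0 ∧ ∀ᶠ z in gen {(x : M.W)},
      Real.log (‖M.val f z‖ ^ 2) = Real.log (‖M.val u z‖ ^ 2) + M.lg x (M.div f) z := by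
  obtain ⟨u, h0, h1, h2⟩ := fac hL x hf
  obtain ⟨h3, h4⟩ := unit_of hL h1
  refine ⟨u, h3, fun h => ?_, M.at_pt ?_ x⟩
  · have := M.val_mul_at h3 h4
    rw [mul_inv_cancel₀ h0, M.val_one, h, zero_mul] at this
    exact one_ne_zero this
  filter_upwards [M.val_mul u (∏ P ∈ (M.div f).support, M.eqn x P ^ P.ord f),
    M.val_prod (M.div f).support fun P => M.eqn x P ^ P.ord f, M.val_ne h0,
    (eventually_all_finset (M.div f).support).2 fun P _ =>
      (M.val_zpow (M.eqn x P) (P.ord f)).and (M.val_ne (eqn_ne x P))] with z k1 k2 k3 k4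
  rw [← h2, k2, Finset.prod_congr rfl fun P hP => (k4 P hP).1] at k1
  have k5 : ∀ P ∈ (M.div f).support, ‖M.val (M.eqn x P) z ^ P.ord f‖ ≠ 0 := fun P hP =>
    norm_ne_zero_iff.2 (zpow_ne_zero _ (k4 P hP).2)
  rw [k1, lg_eq_sum x _ z subset_rfl, Real.log_pow, Real.log_pow, norm_mul, norm_prod,
    Real.log_mul (norm_ne_zero_iff.2 k3) (Finset.prod_ne_zero_iff.2 k5), Real.log_prod k5, mul_add,
    Finset.mul_sum]
  refine congrArg _ (Finset.sum_congr rfl fun P hP => ?_)
  have h5 : M.Pr P := by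
    by_contra h
    exact Finsupp.mem_support_iff.1 hP (by rw [div_apply hL, if_neg h])
  rw [norm_zpow, Real.log_zpow, Real.log_pow, div_pr hL f h5]
  ring

theorem hmap (m : Mod M' M) (y : M'.F) : HMap n m.g y := ⟨m.cont y y.2, m.hol y y.2⟩

theorem semi (m : Mod M' M) (hL : Loc M) (hL' : Loc M') : Semi M' M := by
  rintro B C ⟨G, hG⟩ ⟨G', hG'⟩
  refine ⟨fun z => G (m.g z) + G' z, fun y => ?_⟩
  obtain ⟨φ, h1, h2⟩ := hG (pt m y)
  obtain ⟨φ', h3, h4⟩ := hG' y
  choose u h5 h6 h7 using fun P => lg_fac hL' y (eqn_ne (pt m y) P)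
  refine ⟨fun z => φ (m.g z) + φ' z - ∑ P ∈ B.support, B P * Real.log (‖M'.val (u P) z‖ ^ 2),
    ?_, ?_⟩
  · filter_upwards [(hmap m y).near, (m.cont y y.2).eventually h1, h3,
      (eventually_all_finset B.support).2 fun P _ => (Hol.near (h5 P)).and (Lo.hol_ne (h5 P) (h6 P))]
      with z k1 k2 k3 k4 e he
    obtain ⟨a1, a2⟩ := k1.psd k2 he
    obtain ⟨a3, a4⟩ := k3 e he
    obtain ⟨a5, a6⟩ := flat B.support B (u := fun P w => M'.val (u P) (e.symm w)) (z := e z)
      fun P hP => ⟨(k4 P hP).1 e he, by rw [e.left_inv he.2]; exact (k4 P hP).2⟩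
    refine ⟨(a1.add a3).sub a5, ?_⟩
    rw [cHess_sub (two (a1.add a3)) (two a5), a6, sub_zero, cHess_add (two a1) (two a3)]
    exact Matrix.PosDef.posSemidef_add a2 a4
  · have h8 := lg_congr (M := M') (x := y) (D := M.pull M' B)
      (E := ∑ P ∈ B.support, B P • M'.div (M.eqn (pt m y) P)) fun Q hQ => by
        rw [pull_on m hL hL' (x := pt m y) rfl hQ, ordAt_eq_sum _ _ _ subset_rfl,
          Finsupp.finset_sum_apply]
        exact Finset.sum_congr rfl fun P _ => by
          rw [Finsupp.smul_apply, div_pr hL' _ ⟨y, hQ⟩, smul_eq_mul]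
    filter_upwards [(m.dom y y.2).eventually h2, h4, (eventually_all_finset B.support).2 fun P _ =>
      (h7 P).and (M'.at_pt (m.val (M.eqn (pt m y) P)) y)] with z k1 k2 k3
    rw [k1, k2, lg_add, h8, lg_sum, lg_eq_sum _ B _ subset_rfl,
      Finset.sum_congr rfl fun P hP => by rw [← (k3 P hP).2, (k3 P hP).1, mul_add, ← lg_smul],
      Finset.sum_add_distrib]
    ring

end Vale.Agent.P277Z.Bi
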